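import Mathlib

namespace Vale.Agent.Results.P174.ResidualClosure

universe u

open Monoid

/-- The exponent-sum homomorphism `G * F_n → ℤ^n` (written multiplicatively): it kills `G`
and sends the `j`-th unknown to the `j`-th basis vector. -/
noncomputable def expHom (G : Type u) [Group G] (n : ℕ) :
    Coprod G (FreeGroup (Fin n)) →* Multiplicative (Fin n → ℤ) :=
  Coprod.lift (1 : G →* Multiplicative (Fin n → ℤ))
    (FreeGroup.lift (fun j => Multiplicative.ofAdd (Pi.single j (1 : ℤ))))

/-- The exponent-sum matrix of a finite system `w_1, …, w_m ∈ G * F_n`, with rational entries. -/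
noncomputable def expMatrix {G : Type u} [Group G] {m n : ℕ}
    (w : Fin m → Coprod G (FreeGroup (Fin n))) : Matrix (Fin m) (Fin n) ℚ :=
  Matrix.of fun i j => ((Multiplicative.toAdd (expHom G n (w i)) j : ℤ) : ℚ)

/-- A finite system is nonsingular if its exponent-sum matrix has rank `m` over `ℚ`. -/
def Nonsingular {G : Type u} [Group G] {m n : ℕ}
    (w : Fin m → Coprod G (FreeGroup (Fin n))) : Prop :=
  (expMatrix w).rank = m

/-- A finite system over `G` is solvable over `G` if some group `H` containing `G`
(via an injective homomorphism `φ`) has elements `h_1, …, h_n` at which every `w_i`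
evaluates to `1`. -/
def Solvable {G : Type u} [Group G] {m n : ℕ}
    (w : Fin m → Coprod G (FreeGroup (Fin n))) : Prop :=
  ∃ (H : Type u) (_ : Group H) (φ : G →* H) (h : Fin n → H),
    Function.Injective φ ∧ ∀ i, Coprod.lift φ (FreeGroup.lift h) (w i) = 1

/-- `Howie G`: every nonsingular finite system of equations over `G` is solvable over `G`
(the assertion of Howie's conjecture for the single group `G`). -/
def Howie (G : Type u) [Group G] : Prop :=
  ∀ (m n : ℕ) (w : Fin m → Coprod G (FreeGroup (Fin n))), Nonsingular w → Solvable w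

theorem expHom_map {G Q : Type u} [Group G] [Group Q] (n : ℕ) (ψ : G →* Q) :
    (expHom Q n).comp (Coprod.map ψ (MonoidHom.id (FreeGroup (Fin n)))) = expHom G n := by
  apply Coprod.hom_ext
  · ext g
    simp [expHom]
  · ext j
    simp [expHom]

theorem nonsingular_map {G Q : Type u} [Group G] [Group Q] {m n : ℕ} (ψ : G →* Q)
    (w : Fin m → Coprod G (FreeGroup (Fin n))) (hw : Nonsingular w) :
    Nonsingular (fun i => Coprod.map ψ (MonoidHom.id (FreeGroup (Fin n))) (w i)) := by
  unfold Nonsingular at *
  have : expMatrix (fun i => Coprod.map ψ (MonoidHom.id (FreeGroup (Fin n))) (w i))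
      = expMatrix w := by
    ext i j
    have h := DFunLike.congr_fun (expHom_map n ψ) (w i)
    simp only [MonoidHom.comp_apply] at h
    simp [expMatrix, h]
  rw [this]
  exact hw

theorem lift_map {G Q H : Type u} [Group G] [Group Q] [Group H] {n : ℕ} (ψ : G →* Q)
    (φ : Q →* H) (h : Fin n → H) :
    (Coprod.lift φ (FreeGroup.lift h)).comp (Coprod.map ψ (MonoidHom.id (FreeGroup (Fin n))))
      = Coprod.lift (φ.comp ψ) (FreeGroup.lift h) := by
  apply Coprod.hom_ext
  · ext g
    simp
  · ext j
    simp

/-- Residual closure: if every nontrivial element of `G` survives under some homomorphism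
`ψ : G → Q` with `Howie Q`, then `Howie G`. -/
theorem howie_of_residually (G : Type u) [Group G]
    (hres : ∀ g : G, g ≠ 1 → ∃ (Q : Type u) (_ : Group Q) (ψ : G →* Q), Howie Q ∧ ψ g ≠ 1) :
    Howie G := by
  intro m n w hw
  have hres' : ∀ p : {g : G // g ≠ 1}, ∃ (Q : Type u) (_ : Group Q) (ψ : G →* Q),
      Howie Q ∧ ψ p.1 ≠ 1 := fun p => hres p.1 p.2
  choose Q instQ ψ hQ hψ using hres'
  -- solve the image systems
  have hsol : ∀ p : {g : G // g ≠ 1}, ∃ (H : Type u) (_ : Group H) (φ : Q p →* H)
      (h : Fin n → H), Function.Injective φ ∧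
      ∀ i, Coprod.lift φ (FreeGroup.lift h)
        (Coprod.map (ψ p) (MonoidHom.id (FreeGroup (Fin n))) (w i)) = 1 := by
    intro p
    exact hQ p m n _ (nonsingular_map (ψ p) w hw)
  choose H instH φ h hφ hh using hsol
  refine ⟨∀ p : {g : G // g ≠ 1}, H p, inferInstance,
    MonoidHom.pi (fun p : {g : G // g ≠ 1} => (φ p).comp (ψ p)),
    fun j p => h p j, ?_, ?_⟩
  · rw [injective_iff_map_eq_one]
    intro a ha
    by_contra hne
    have h1 : (φ ⟨a, hne⟩) ((ψ ⟨a, hne⟩) a) = 1 := congr_fun ha ⟨a, hne⟩
    have h2 : ψ ⟨a, hne⟩ a = 1 := by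
      apply hφ ⟨a, hne⟩
      rw [h1, map_one]
    exact hψ ⟨a, hne⟩ h2
  · intro i
    funext p
    have key : (Pi.evalMonoidHom (fun p : {g : G // g ≠ 1} => H p) p).comp
        (Coprod.lift (MonoidHom.pi (fun p : {g : G // g ≠ 1} => (φ p).comp (ψ p)))
          (FreeGroup.lift (fun j p => h p j)))
        = Coprod.lift ((φ p).comp (ψ p)) (FreeGroup.lift (h p)) := by
      apply Coprod.hom_ext
      · ext g
        simp
      · ext j
        simp
    have h3 := DFunLike.congr_fun key (w i)
    simp only [MonoidHom.comp_apply, Pi.evalMonoidHom_apply] at h3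
    rw [h3, ← lift_map, MonoidHom.comp_apply]
    exact hh p i

/-- The class of groups over which every nonsingular finite system of equations is solvable
is closed under residual approximation, under passing to subgroups, and under direct products. -/
theorem result :
    (∀ (G : Type u) [Group G],
        (∀ g : G, g ≠ 1 → ∃ (Q : Type u) (_ : Group Q) (ψ : G →* Q), Howie Q ∧ ψ g ≠ 1) →
        Howie G) ∧
    (∀ (G K : Type u) [Group G] [Group K] (ι : G →* K), Function.Injective ι →
        Howie K → Howie G) ∧
    (∀ (G₁ G₂ : Type u) [Group G₁] [Group G₂], Howie G₁ → Howie G₂ → Howie (G₁ × G₂)) := by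
  refine ⟨fun G _ hres => howie_of_residually G hres, ?_, ?_⟩
  · intro G K _ _ ι hι hK
    apply howie_of_residually
    intro g hg
    refine ⟨K, inferInstance, ι, hK, ?_⟩
    intro h
    exact hg (hι (h.trans (map_one ι).symm))
  · intro G₁ G₂ _ _ h₁ h₂
    apply howie_of_residually
    intro g hg
    by_cases h : g.1 = 1
    · refine ⟨G₂, inferInstance, MonoidHom.snd G₁ G₂, h₂, ?_⟩
      intro h'
      exact hg (Prod.ext h h')
    · exact ⟨G₁, inferInstance, MonoidHom.fst G₁ G₂, h₁, h⟩

end Vale.Agent.Results.P174.ResidualClosure
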