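import Mathlib
import Vale.Agent.Results.P174.ResidualClosure

namespace Vale.Agent.Results.P174.FgMonolithic

universe u

open Monoid
open Vale.Agent.Results.P174.ResidualClosure

/-- A group is monolithic (subdirectly irreducible) if some nontrivial element lies in every
nontrivial normal subgroup. -/
def Monolithic (G : Type u) [Group G] : Prop :=
  ∃ g : G, g ≠ 1 ∧ ∀ N : Subgroup G, N.Normal → N ≠ ⊥ → g ∈ N

theorem exists_monolithic_quotient (G : Type u) [Group G] (g : G) (hg : g ≠ 1) :
    ∃ (M : Subgroup G) (_ : M.Normal), g ∉ M ∧ Monolithic (G ⧸ M) := by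
  obtain ⟨M, -, hM⟩ := zorn_le_nonempty₀ {M : Subgroup G | M.Normal ∧ g ∉ M} (by
    intro c hc hchain y hy
    refine ⟨sSup c, ⟨Subgroup.sSup_normal c (fun H hH => (hc hH).1), ?_⟩,
      fun z hz => le_sSup hz⟩
    intro hmem
    rw [Subgroup.mem_sSup_of_directedOn ⟨y, hy⟩ hchain.directedOn] at hmem
    obtain ⟨s, hs, hgs⟩ := hmem
    exact (hc hs).2 hgs) ⊥ ⟨inferInstance, by simpa using hg⟩
  have hMn : M.Normal := hM.prop.1
  have hgM : g ∉ M := hM.prop.2
  refine ⟨M, hMn, hgM, QuotientGroup.mk' M g, ?_, ?_⟩
  · intro h
    exact hgM ((QuotientGroup.eq_one_iff g).mp h)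
  · intro N hN hNbot
    have hle : M ≤ N.comap (QuotientGroup.mk' M) := by
      intro x hx
      rw [Subgroup.mem_comap]
      have : QuotientGroup.mk' M x = 1 := (QuotientGroup.eq_one_iff x).mpr hx
      rw [this]
      exact N.one_mem
    by_contra hgN
    have hin : N.comap (QuotientGroup.mk' M) ∈ {M : Subgroup G | M.Normal ∧ g ∉ M} :=
      ⟨inferInstance, fun h => hgN (Subgroup.mem_comap.mp h)⟩
    have hle2 : N.comap (QuotientGroup.mk' M) ≤ M := hM.le_of_ge hin hle
    apply hNbot
    rw [eq_bot_iff]
    intro y hy
    obtain ⟨x, rfl⟩ := QuotientGroup.mk'_surjective M y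
    have hx : x ∈ M := hle2 (Subgroup.mem_comap.mpr hy)
    rw [Subgroup.mem_bot]
    exact (QuotientGroup.eq_one_iff x).mpr hx

/-- Every element of `G * F_n` involves only finitely many coefficients. -/
theorem exists_finset_mem_range {G : Type u} [Group G] (n : ℕ)
    (z : Coprod G (FreeGroup (Fin n))) :
    ∃ S : Finset G, z ∈ (Coprod.map (Subgroup.closure (S : Set G)).subtype
      (MonoidHom.id (FreeGroup (Fin n)))).range := by
  classical
  have mono : ∀ (S T : Finset G), S ⊆ T →
      (Coprod.map (Subgroup.closure (S : Set G)).subtype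
        (MonoidHom.id (FreeGroup (Fin n)))).range ≤
      (Coprod.map (Subgroup.closure (T : Set G)).subtype
        (MonoidHom.id (FreeGroup (Fin n)))).range := by
    intro S T hST
    have hle : Subgroup.closure (S : Set G) ≤ Subgroup.closure (T : Set G) :=
      Subgroup.closure_mono (by exact_mod_cast hST)
    rintro _ ⟨y, rfl⟩
    refine ⟨Coprod.map (Subgroup.inclusion hle) (MonoidHom.id _) y, ?_⟩
    rw [Coprod.map_map]
    rfl
  induction z using Coprod.induction_on with
  | inl g =>
    refine ⟨{g}, Coprod.inl ⟨g, Subgroup.subset_closure (by simp)⟩, ?_⟩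
    simp
  | inr f =>
    exact ⟨∅, Coprod.inr f, by simp⟩
  | mul x y hx hy =>
    obtain ⟨S, hS⟩ := hx
    obtain ⟨T, hT⟩ := hy
    exact ⟨S ∪ T, mul_mem (mono S (S ∪ T) Finset.subset_union_left hS)
      (mono T (S ∪ T) Finset.subset_union_right hT)⟩

/-- The two-member family of groups used to form an amalgamated free product. -/
abbrev fam (A B : Type u) (b : Bool) : Type u := Bool.rec B A b

instance famGroup (A B : Type u) [Group A] [Group B] : ∀ b, Group (fam A B b) :=
  fun b => Bool.rec (inferInstanceAs (Group B)) (inferInstanceAs (Group A)) b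

/-- A system with coefficients in a subgroup `G₀` that is solvable over `G₀` is solvable
over `G` (amalgamated free product of `G` and the overgroup of `G₀`). -/
theorem solvable_of_subgroup {G : Type u} [Group G] (G₀ : Subgroup G) {m n : ℕ}
    (w₀ : Fin m → Coprod G₀ (FreeGroup (Fin n))) (hsol : Solvable w₀) :
    Solvable (fun i => Coprod.map G₀.subtype (MonoidHom.id (FreeGroup (Fin n))) (w₀ i)) := by
  obtain ⟨H₀, instH₀, φ₀, h₀, hφ₀, hsol⟩ := hsol
  -- amalgamate `G` and `H₀` over `G₀`
  let φ : ∀ b, G₀ →* fam G H₀ b := fun b => Bool.rec φ₀ G₀.subtype b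
  have hφ : ∀ b, Function.Injective (φ b) := by
    intro b
    cases b
    · exact hφ₀
    · exact Subgroup.subtype_injective G₀
  let ofG : G →* PushoutI φ := PushoutI.of (φ := φ) true
  let ofH : H₀ →* PushoutI φ := PushoutI.of (φ := φ) false
  have hofG : Function.Injective ofG := PushoutI.of_injective hφ true
  have hcomp : ofG.comp G₀.subtype = ofH.comp φ₀ := by
    have e1 : ofG.comp G₀.subtype = PushoutI.base φ := PushoutI.of_comp_eq_base (φ := φ) true
    have e2 : ofH.comp φ₀ = PushoutI.base φ := PushoutI.of_comp_eq_base (φ := φ) false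
    exact e1.trans e2.symm
  refine ⟨PushoutI φ, inferInstance, ofG, fun j => ofH (h₀ j), hofG, ?_⟩
  intro i
  have key : (Coprod.lift ofG (FreeGroup.lift (fun j => ofH (h₀ j)))).comp
        (Coprod.map G₀.subtype (MonoidHom.id (FreeGroup (Fin n))))
      = ofH.comp (Coprod.lift φ₀ (FreeGroup.lift h₀)) := by
    apply Coprod.hom_ext
    · ext g
      have := DFunLike.congr_fun hcomp g
      simpa using this
    · ext j
      simp
  have h3 := DFunLike.congr_fun key (w₀ i)
  simp only [MonoidHom.comp_apply] at h3
  rw [h3, hsol i, map_one]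

/-- Local closure: if every finitely generated subgroup of `G` has the Howie property,
so does `G`. -/
theorem howie_of_locally (G : Type u) [Group G]
    (hloc : ∀ S : Finset G, Howie (Subgroup.closure (S : Set G))) : Howie G := by
  classical
  intro m n w hw
  -- a finite set of coefficients carrying the whole system
  have h1 : ∀ i, ∃ S : Finset G, w i ∈ (Coprod.map (Subgroup.closure (S : Set G)).subtype
      (MonoidHom.id (FreeGroup (Fin n)))).range := fun i => exists_finset_mem_range n (w i)
  choose S hS using h1
  have hT : ∀ i, w i ∈ (Coprod.map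
      (Subgroup.closure ((Finset.univ.biUnion S : Finset G) : Set G)).subtype
      (MonoidHom.id (FreeGroup (Fin n)))).range := by
    intro i
    obtain ⟨y, hy⟩ := hS i
    have hle : Subgroup.closure (S i : Set G) ≤
        Subgroup.closure ((Finset.univ.biUnion S : Finset G) : Set G) :=
      Subgroup.closure_mono (by
        intro x hx
        have : x ∈ Finset.univ.biUnion S := Finset.mem_biUnion.mpr ⟨i, Finset.mem_univ i, hx⟩
        exact this)
    refine ⟨Coprod.map (Subgroup.inclusion hle) (MonoidHom.id _) y, ?_⟩
    rw [Coprod.map_map, ← hy]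
    rfl
  choose w₀ hw₀ using hT
  have hns : Nonsingular w₀ := by
    unfold Nonsingular at *
    have : expMatrix w₀ = expMatrix w := by
      ext i j
      have h := DFunLike.congr_fun (expHom_map n
        (Subgroup.closure ((Finset.univ.biUnion S : Finset G) : Set G)).subtype) (w₀ i)
      simp only [MonoidHom.comp_apply] at h
      rw [hw₀ i] at h
      simp [expMatrix, h]
    rw [this]
    exact hw
  have hfin := solvable_of_subgroup _ w₀ (hloc _ m n w₀ hns)
  have hw' : (fun i => Coprod.map
      (Subgroup.closure ((Finset.univ.biUnion S : Finset G) : Set G)).subtype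
      (MonoidHom.id (FreeGroup (Fin n))) (w₀ i)) = w := funext hw₀
  rw [hw'] at hfin
  exact hfin

theorem howie_of_fg_monolithic
    (h : ∀ (Q : Type u) [Group Q], Group.FG Q → Monolithic Q → Howie Q) :
    ∀ (G : Type u) [Group G], Howie G := by
  intro G _
  apply howie_of_locally
  intro S
  apply howie_of_residually
  intro g hg
  obtain ⟨M, hMn, hgM, hmono⟩ := exists_monolithic_quotient _ g hg
  refine ⟨_ ⧸ M, inferInstance, QuotientGroup.mk' M, h _ ?_ hmono, ?_⟩
  · exact Group.fg_of_surjective (QuotientGroup.mk'_surjective M)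
  · intro h1
    exact hgM ((QuotientGroup.eq_one_iff g).mp h1)

/-- Howie's conjecture for all groups (of a universe) is equivalent to Howie's conjecture for
finitely generated monolithic groups. -/
theorem result :
    (∀ (G : Type u) [Group G], Howie G) ↔
      (∀ (Q : Type u) [Group Q], Group.FG Q → Monolithic Q → Howie Q) :=
  ⟨fun h Q _ _ _ => h Q, howie_of_fg_monolithic⟩

end Vale.Agent.Results.P174.FgMonolithic
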