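import Mathlib
import Vale.Agent.Results.P174.FgMonolithic

/-!
# Howie's conjecture reduces to finitely generated monolithic groups (Mathlib terms only)

This is the statement of `P174.FgMonolithic` with all its definitions written out in the
statement itself.

A finite system of equations over a group `G` in `n` unknowns is a family
`w : Fin m → Coprod G (FreeGroup (Fin n))` of elements of the free product `G * F_n`.

* `NS G m n w` (the system is nonsingular): the `m × n` rational matrix whose entry `(i, j)`
  is the `j`-th coordinate of the image of `w i` under the homomorphism `G * F_n → ℤ^n` that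
  kills `G` and sends the `j`-th unknown to the `j`-th basis vector has rank `m`.
* `Sol G m n w` (the system is solvable over `G`): there are a group `H`, an injective
  homomorphism `φ : G → H` and elements `h_1, …, h_n` of `H` at which every `w i` evaluates
  to `1`.

The theorem: every nonsingular finite system over every group is solvable over that group if
and only if this holds for every finitely generated group `Q` that has an element `g ≠ 1`
lying in every nontrivial normal subgroup of `Q`.
-/

namespace Vale.Agent.Results.P174.FgMonolithicPlain

universe u

open Monoid

theorem result :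
    let NS : ∀ (G : Type u) [Group G] (m n : ℕ),
        (Fin m → Coprod G (FreeGroup (Fin n))) → Prop := fun G _ m n w =>
      (Matrix.of fun (i : Fin m) (j : Fin n) =>
        ((Multiplicative.toAdd
          (Coprod.lift (1 : G →* Multiplicative (Fin n → ℤ))
            (FreeGroup.lift (fun j => Multiplicative.ofAdd (Pi.single j (1 : ℤ))))
            (w i)) j : ℤ) : ℚ)).rank = m
    let Sol : ∀ (G : Type u) [Group G] (m n : ℕ),
        (Fin m → Coprod G (FreeGroup (Fin n))) → Prop := fun G _ m n w =>
      ∃ (H : Type u) (_ : Group H) (φ : G →* H) (h : Fin n → H),
        Function.Injective φ ∧ ∀ i, Coprod.lift φ (FreeGroup.lift h) (w i) = 1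
    (∀ (G : Type u) [Group G] (m n : ℕ) (w : Fin m → Coprod G (FreeGroup (Fin n))),
        NS G m n w → Sol G m n w) ↔
    (∀ (Q : Type u) [Group Q], Group.FG Q →
        (∃ g : Q, g ≠ 1 ∧ ∀ N : Subgroup Q, N.Normal → N ≠ ⊥ → g ∈ N) →
        ∀ (m n : ℕ) (w : Fin m → Coprod Q (FreeGroup (Fin n))), NS Q m n w → Sol Q m n w) :=
  Vale.Agent.Results.P174.FgMonolithic.result

end Vale.Agent.Results.P174.FgMonolithicPlain
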