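import Mathlib
import Vale.Agent.Results.P174.ResidualClosure

/-!
# Howie's conjecture: local embeddings, finitely presented groups, ultraproducts

`Howie G` (defined in `Vale.Agent.Results.P174.ResidualClosure`) says that every nonsingular
finite system of equations over the group `G` is solvable over `G`.

1. Local embeddability.  Let `G` be a group such that for every finite subset `F` of `G` there
   are a group `Q` with `Howie Q` and a map of sets `φ : G → Q` (not assumed to be a
   homomorphism) with `φ (x * y) = φ x * φ y` for all `x, y ∈ F` and `φ` injective on `F`.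
   Then `Howie G`.
2. Finitely presented groups suffice.  `Howie G` holds for every group `G` if and only if it
   holds for every group `PresentedGroup rels` with a finite type of generators and a finite
   set `rels` of relators.
3. Ultraproducts.  If `Howie (Q i)` for every `i`, then `Howie` holds for the ultraproduct of
   the groups `Q i` along any ultrafilter `l`, that is, for the quotient of the product
   group by the normal subgroup `N` of the families `x` with `x i = 1` for `l`-almost all `i`.

Proof of 1: write every `w i` as a word in the free monoid on `G ⊕ F_n`, push the coefficients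
of these words to `Q F` along `φ F`, solve the resulting nonsingular system in an overgroup
`H F` of `Q F`, and embed `G` into the quotient of the product of all `H F` by the families
which are trivial for all sufficiently large finite sets `F`.  Part 2 follows because every
group is locally embeddable into finitely presented groups, and part 3 because an
ultraproduct is locally embeddable into its factors.
-/

namespace Vale.Agent.Results.P174.LocalEmbeddingClosure

universe u

open Monoid
open Vale.Agent.Results.P174.ResidualClosure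

/-- Pushing the coefficients of a word along a map of sets. -/
noncomputable def pushWord {G Q : Type u} [Group G] [Group Q] (n : ℕ) (φ : G → Q) :
    FreeMonoid (G ⊕ FreeGroup (Fin n)) →* Coprod Q (FreeGroup (Fin n)) :=
  Coprod.mk.comp (FreeMonoid.map (Sum.map φ id))

theorem expHom_pushWord {G Q : Type u} [Group G] [Group Q] (n : ℕ) (φ : G → Q) :
    (expHom Q n).comp (pushWord n φ) = (expHom G n).comp Coprod.mk := by
  apply FreeMonoid.hom_eq
  intro x
  cases x with
  | inl g => simp [pushWord, expHom]
  | inr y => simp [pushWord, expHom]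

/-- The normal subgroup of the families that are eventually trivial. -/
def evOne {I : Type u} [Preorder I] (H : I → Type u) [∀ i, Group (H i)] :
    Subgroup (∀ i, H i) where
  carrier := {x | ∀ᶠ i in Filter.atTop, x i = 1}
  one_mem' := Filter.Eventually.of_forall (fun _ => rfl)
  mul_mem' := by
    intro a b ha hb
    filter_upwards [ha, hb] with i h1 h2
    simp [h1, h2]
  inv_mem' := by
    intro a ha
    filter_upwards [ha] with i h1
    simp [h1]

theorem evOne_normal {I : Type u} [Preorder I] (H : I → Type u) [∀ i, Group (H i)] :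
    (evOne H).Normal where
  conj_mem := by
    intro a ha g
    change ∀ᶠ i in Filter.atTop, (g * a * g⁻¹) i = 1
    have ha' : ∀ᶠ i in Filter.atTop, a i = 1 := ha
    filter_upwards [ha'] with i h1
    simp [h1]

theorem mem_evOne {I : Type u} [Preorder I] (H : I → Type u) [∀ i, Group (H i)]
    (x : ∀ i, H i) : x ∈ evOne H ↔ ∀ᶠ i in Filter.atTop, x i = 1 := Iff.rfl

/-- Closure under local embeddability. -/
theorem howie_of_locally_embeddable (G : Type u) [Group G]
    (hLE : ∀ F : Finset G, ∃ (Q : Type u) (_ : Group Q) (φ : G → Q), Howie Q ∧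
      (∀ x ∈ F, ∀ y ∈ F, φ (x * y) = φ x * φ y) ∧ Set.InjOn φ (F : Set G)) :
    Howie G := by
  classical
  intro m n w hw
  choose Q instQ φ hQ hmul hinj using hLE
  have hrep : ∀ i, ∃ ω : FreeMonoid (G ⊕ FreeGroup (Fin n)), Coprod.mk ω = w i :=
    fun i => Coprod.mk_surjective (w i)
  choose ω hω using hrep
  have hns : ∀ F : Finset G, Nonsingular (fun i => pushWord n (φ F) (ω i)) := by
    intro F
    unfold Nonsingular at *
    have : expMatrix (fun i => pushWord n (φ F) (ω i)) = expMatrix w := by
      ext i j
      have h := DFunLike.congr_fun (expHom_pushWord n (φ F)) (ω i)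
      simp only [MonoidHom.comp_apply] at h
      simp [expMatrix, h, hω]
    rw [this]
    exact hw
  have hsol : ∀ F : Finset G, ∃ (H : Type u) (_ : Group H) (ι : Q F →* H) (h : Fin n → H),
      Function.Injective ι ∧
        ∀ i, Coprod.lift ι (FreeGroup.lift h) (pushWord n (φ F) (ω i)) = 1 :=
    fun F => hQ F m n _ (hns F)
  choose H instH ι h hι hh using hsol
  have hnormal : (evOne H).Normal := evOne_normal H
  have hφone : ∀ F : Finset G, (1 : G) ∈ F → φ F 1 = 1 := by
    intro F h1
    have h2 := hmul F 1 h1 1 h1
    rw [mul_one] at h2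
    exact mul_left_cancel (a := φ F 1) (by rw [mul_one]; exact h2.symm)
  have hΦmul : ∀ a b : G,
      (QuotientGroup.mk (fun F => ι F (φ F (a * b))) : (∀ F, H F) ⧸ evOne H)
        = QuotientGroup.mk (fun F => ι F (φ F a)) * QuotientGroup.mk (fun F => ι F (φ F b)) := by
    intro a b
    rw [← QuotientGroup.mk_mul, QuotientGroup.eq, mem_evOne, Filter.eventually_atTop]
    refine ⟨{a, b}, fun F hF => ?_⟩
    have ha : a ∈ F := hF (by simp)
    have hb : b ∈ F := hF (by simp)
    simp [hmul F a ha b hb]
  let Φ : G →* (∀ F, H F) ⧸ evOne H :=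
    MonoidHom.mk' (fun g => QuotientGroup.mk (fun F => ι F (φ F g))) hΦmul
  have hΦ : ∀ g, Φ g = QuotientGroup.mk (fun F => ι F (φ F g)) := fun g => rfl
  let hs : Fin n → (∀ F, H F) ⧸ evOne H := fun j => QuotientGroup.mk (fun F => h F j)
  have hlift : FreeGroup.lift hs
      = (QuotientGroup.mk' (evOne H)).comp (MonoidHom.pi (fun F => FreeGroup.lift (h F))) := by
    apply FreeGroup.ext_hom
    intro j
    simp only [hs, FreeGroup.lift_apply_of, MonoidHom.comp_apply, QuotientGroup.mk'_apply]
    congr 1
    funext F
    simp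
  have hAB : (Coprod.lift Φ (FreeGroup.lift hs)).comp Coprod.mk
      = (QuotientGroup.mk' (evOne H)).comp (MonoidHom.pi (fun F =>
          (Coprod.lift (ι F) (FreeGroup.lift (h F))).comp (pushWord n (φ F)))) := by
    apply FreeMonoid.hom_eq
    intro x
    cases x with
    | inl g =>
      simp [pushWord, hΦ]
      rfl
    | inr y =>
      simp [pushWord, hlift]
      rfl
  refine ⟨(∀ F, H F) ⧸ evOne H, inferInstance, Φ, hs, ?_, ?_⟩
  · rw [injective_iff_map_eq_one]
    intro g hg
    rw [hΦ, QuotientGroup.eq_one_iff, mem_evOne, Filter.eventually_atTop] at hg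
    obtain ⟨F0, hF0⟩ := hg
    have h1 := hF0 (F0 ∪ {g, 1}) Finset.subset_union_left
    have hgF : g ∈ F0 ∪ {g, 1} := by simp
    have h1F : (1 : G) ∈ F0 ∪ {g, 1} := by simp
    have h2 : φ (F0 ∪ {g, 1}) g = 1 := by
      apply hι (F0 ∪ {g, 1})
      rw [map_one]
      exact h1
    exact hinj (F0 ∪ {g, 1}) (Finset.mem_coe.2 hgF) (Finset.mem_coe.2 h1F)
      (h2.trans (hφone _ h1F).symm)
  · intro i
    have h3 := DFunLike.congr_fun hAB (ω i)
    simp only [MonoidHom.comp_apply, hω] at h3
    rw [h3]
    have h4 : (MonoidHom.pi (fun F =>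
        (Coprod.lift (ι F) (FreeGroup.lift (h F))).comp (pushWord n (φ F)))) (ω i) = 1 := by
      funext F
      exact hh F i
    rw [h4, map_one]

/-- Every group is locally embeddable into finitely presented groups; hence the conjecture
for finitely presented groups gives the conjecture for all groups. -/
theorem howie_of_finitely_presented
    (hfp : ∀ (ι : Type u) [Finite ι] (rels : Set (FreeGroup ι)), rels.Finite →
      Howie (PresentedGroup rels)) (G : Type u) [Group G] : Howie G := by
  classical
  apply howie_of_locally_embeddable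
  intro F
  let F' : Finset G := F ∪ Finset.image₂ (fun x y => x * y) F F
  have hF : ∀ x ∈ F, x ∈ F' := fun x hx => Finset.mem_union_left _ hx
  have hFF : ∀ x ∈ F, ∀ y ∈ F, x * y ∈ F' := fun x hx y hy =>
    Finset.mem_union_right _ (Finset.mem_image₂_of_mem hx hy)
  let rels : Set (FreeGroup {z // z ∈ F'}) :=
    Set.range (fun p : {x // x ∈ F} × {y // y ∈ F} =>
      FreeGroup.of ⟨p.1.1, hF _ p.1.2⟩ * FreeGroup.of ⟨p.2.1, hF _ p.2.2⟩ *
        (FreeGroup.of ⟨p.1.1 * p.2.1, hFF _ p.1.2 _ p.2.2⟩)⁻¹)
  have hrels : rels.Finite := Set.finite_range _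
  let φ : G → PresentedGroup rels := fun z =>
    if hz : z ∈ F' then PresentedGroup.of ⟨z, hz⟩ else 1
  have hval : ∀ r ∈ rels, FreeGroup.lift (fun z : {z // z ∈ F'} => (z : G)) r = 1 := by
    rintro r ⟨p, rfl⟩
    simp
  refine ⟨PresentedGroup rels, inferInstance, φ, hfp _ rels hrels, ?_, ?_⟩
  · intro x hx y hy
    have h1 : φ (x * y) = PresentedGroup.of ⟨x * y, hFF x hx y hy⟩ := dif_pos _
    have h2 : φ x = PresentedGroup.of ⟨x, hF x hx⟩ := dif_pos _
    have h3 : φ y = PresentedGroup.of ⟨y, hF y hy⟩ := dif_pos _
    rw [h1, h2, h3]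
    have hr : PresentedGroup.mk rels (FreeGroup.of ⟨x, hF x hx⟩ * FreeGroup.of ⟨y, hF y hy⟩ *
        (FreeGroup.of ⟨x * y, hFF x hx y hy⟩)⁻¹) = 1 :=
      PresentedGroup.one_of_mem ⟨(⟨x, hx⟩, ⟨y, hy⟩), rfl⟩
    rw [map_mul, map_mul, map_inv, mul_inv_eq_one] at hr
    exact hr.symm
  · intro x hx y hy hxy
    have h2 : φ x = PresentedGroup.of ⟨x, hF x hx⟩ := dif_pos _
    have h3 : φ y = PresentedGroup.of ⟨y, hF y hy⟩ := dif_pos _
    have h4 := congrArg (PresentedGroup.toGroup hval) hxy
    rw [h2, h3, PresentedGroup.toGroup.of, PresentedGroup.toGroup.of] at h4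
    exact h4

/-- Closure under ultraproducts. -/
theorem howie_of_ultraproduct {I : Type u} (l : Ultrafilter I) (Q : I → Type u)
    [∀ i, Group (Q i)] (hQ : ∀ i, Howie (Q i)) (N : Subgroup (∀ i, Q i)) [N.Normal]
    (hN : ∀ x : ∀ i, Q i, x ∈ N ↔ ∀ᶠ i in (l : Filter I), x i = 1) :
    Howie ((∀ i, Q i) ⧸ N) := by
  classical
  apply howie_of_locally_embeddable
  intro F
  have hr : ∀ x : (∀ i, Q i) ⧸ N, ∃ a : ∀ i, Q i, (QuotientGroup.mk a : (∀ i, Q i) ⧸ N) = x :=
    fun x => QuotientGroup.mk_surjective x
  choose r hr using hr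
  have hA : ∀ x ∈ F, ∀ y ∈ F, ∀ᶠ i in (l : Filter I), r (x * y) i = r x i * r y i := by
    intro x _ y _
    have h1 : (QuotientGroup.mk (r x * r y) : (∀ i, Q i) ⧸ N) = QuotientGroup.mk (r (x * y)) := by
      rw [QuotientGroup.mk_mul, hr, hr, hr]
    rw [QuotientGroup.eq, hN] at h1
    filter_upwards [h1] with i hi
    have h2 : (r x i * r y i)⁻¹ * r (x * y) i = 1 := hi
    exact (inv_mul_eq_one.mp h2).symm
  have hB : ∀ x ∈ F, ∀ y ∈ F, ∀ᶠ i in (l : Filter I), x ≠ y → r x i ≠ r y i := by
    intro x _ y _
    by_cases hxy : x = y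
    · exact Filter.Eventually.of_forall (fun i h => absurd hxy h)
    · have h1 : ¬ ∀ᶠ i in (l : Filter I), r x i = r y i := by
        intro h2
        apply hxy
        rw [← hr x, ← hr y, QuotientGroup.eq, hN]
        filter_upwards [h2] with i hi
        change (r x i)⁻¹ * r y i = 1
        rw [hi, inv_mul_cancel]
      have h3 := (Ultrafilter.eventually_not).mpr h1
      filter_upwards [h3] with i hi _
      exact hi
  have hAll : ∀ᶠ i in (l : Filter I), (∀ x ∈ F, ∀ y ∈ F, r (x * y) i = r x i * r y i) ∧
      (∀ x ∈ F, ∀ y ∈ F, x ≠ y → r x i ≠ r y i) := by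
    refine Filter.Eventually.and ?_ ?_
    · rw [Filter.eventually_all_finset]
      intro x hx
      rw [Filter.eventually_all_finset]
      exact hA x hx
    · rw [Filter.eventually_all_finset]
      intro x hx
      rw [Filter.eventually_all_finset]
      exact hB x hx
  obtain ⟨i, hi1, hi2⟩ := hAll.exists
  refine ⟨Q i, inferInstance, fun x => r x i, hQ i, hi1, ?_⟩
  intro x hx y hy hxy
  by_contra hne
  exact hi2 x hx y hy hne hxy

/-- **Local embeddings, finitely presented groups and ultraproducts.**

1. If for every finite subset `F` of a group `G` there are a group `Q` with `Howie Q` and a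
   map `φ : G → Q` with `φ (x * y) = φ x * φ y` for all `x, y ∈ F` and `φ` injective on `F`,
   then `Howie G`.
2. `Howie G` for all groups `G` is equivalent to `Howie (PresentedGroup rels)` for all finite
   types of generators and all finite sets `rels` of relators.
3. If `Howie (Q i)` for all `i`, `l` is an ultrafilter on the index type and `N` is the normal
   subgroup of the product group formed by the families that are trivial `l`-almost
   everywhere, then `Howie` holds for the quotient of the product by `N`. -/
theorem result :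
    (∀ (G : Type u) [Group G],
        (∀ F : Finset G, ∃ (Q : Type u) (_ : Group Q) (φ : G → Q), Howie Q ∧
          (∀ x ∈ F, ∀ y ∈ F, φ (x * y) = φ x * φ y) ∧ Set.InjOn φ (F : Set G)) →
        Howie G) ∧
    ((∀ (G : Type u) [Group G], Howie G) ↔
      (∀ (ι : Type u) [Finite ι] (rels : Set (FreeGroup ι)), rels.Finite →
        Howie (PresentedGroup rels))) ∧
    (∀ (I : Type u) (l : Ultrafilter I) (Q : I → Type u) [∀ i, Group (Q i)],
      (∀ i, Howie (Q i)) →
      ∀ (N : Subgroup (∀ i, Q i)) [N.Normal],
        (∀ x : ∀ i, Q i, x ∈ N ↔ ∀ᶠ i in (l : Filter I), x i = 1) →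
        Howie ((∀ i, Q i) ⧸ N)) :=
  ⟨fun G _ h => howie_of_locally_embeddable G h,
    ⟨fun h _ _ rels _ => h (PresentedGroup rels), fun h G _ => howie_of_finitely_presented h G⟩,
    fun _ l Q _ hQ N _ hN => howie_of_ultraproduct l Q hQ N hN⟩

end Vale.Agent.Results.P174.LocalEmbeddingClosure
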